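import Vale.Agent.P100.Weighted.Wire
import Vale.Agent.P100.Ineq.Tri.Main

/-!
# P100: nonexistence for the Hénon–Lane–Emden system with equal weights

No positive entire solution in the subcritical range, for `-2 < a ≤ 0` and `10 + 3 a ≤ 2 n`;
with `a = 0` this is the Lane–Emden system in every dimension `n ≥ 5`.
-/

namespace Vale.Agent.Results.P100.HenonLaneEmden

open scoped ContDiff Laplacian

theorem result :
    ∀ (n : ℕ) (a p q : ℝ), 3 ≤ n → -2 < a → a ≤ 0 → 10 + 3 * a ≤ 2 * n → 0 < p → 0 < q →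
      (n : ℝ) - 2 < ((n : ℝ) + a) / (p + 1) + ((n : ℝ) + a) / (q + 1) →
      ¬ ∃ u v : EuclideanSpace ℝ (Fin n) → ℝ, Continuous u ∧ Continuous v ∧
        ContDiffOn ℝ 2 u {x | x ≠ 0} ∧ ContDiffOn ℝ 2 v {x | x ≠ 0} ∧
        (∀ x, 0 < u x) ∧ (∀ x, 0 < v x) ∧
        ∀ x, x ≠ 0 → -(Δ u x) = ‖x‖ ^ a * v x ^ p ∧ -(Δ v x) = ‖x‖ ^ a * u x ^ q :=
  Vale.Agent.P100.Weighted.answer_of_forward
    fun _ _ _ _ _ hS R hB => Vale.Agent.P100.Ineq.Tri.cE_pos hS R hB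

end Vale.Agent.Results.P100.HenonLaneEmden
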